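import Mathlib

/-!
P338-D: the radix `R = 2 ^ (d ^ 2 + 3)` and the pairwise coprime odd moduli
`s_j = 1 + A (T - j)`, `j < d`, `A = 2 d!`, `T = (R - 1) / A`, just below it; explicit inverses.
-/

namespace Vale.Agent.P338.R3.H501.Rad

open Finset

/-- The binary logarithm of the radix. -/
def aR (d : ℕ) : ℕ := d ^ 2 + 3

/-- The difference of two consecutive moduli. -/
def AR (d : ℕ) : ℕ := 2 * d.factorial

/-- The largest quotient. -/
def TR (d : ℕ) : ℕ := (2 ^ aR d - 1) / AR d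

/-- The moduli. -/
def sR (d j : ℕ) : ℕ := 1 + AR d * (TR d - j)

theorem AR_pos (d : ℕ) : 0 < AR d := Nat.mul_pos (by norm_num) d.factorial_pos

theorem AR_bound {d : ℕ} (hd : 1 ≤ d) : 2 * d * d * AR d ≤ 2 ^ aR d := by
  unfold AR aR
  induction d, hd using Nat.le_induction with
  | base => decide
  | succ n hn ih =>
    have h1 : n + 1 ≤ 2 ^ n := Nat.lt_two_pow_self
    have h2 : (n + 1) * (n + 1) ≤ 4 * (n * n) := by nlinarith
    calc 2 * (n + 1) * (n + 1) * (2 * (n + 1).factorial)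
        = ((n + 1) * (n + 1)) * (n + 1) * (2 * (2 * n.factorial)) := by
          rw [Nat.factorial_succ]; ring
      _ ≤ (4 * (n * n)) * 2 ^ n * (2 * (2 * n.factorial)) := by gcongr
      _ = 2 ^ 2 * 2 ^ n * (2 * n * n * (2 * n.factorial)) := by ring
      _ ≤ 2 ^ 2 * 2 ^ n * 2 ^ (n ^ 2 + 3) := by gcongr
      _ = 2 ^ (2 + n + (n ^ 2 + 3)) := by rw [← pow_add, ← pow_add]
      _ ≤ 2 ^ ((n + 1) ^ 2 + 3) := Nat.pow_le_pow_right (by norm_num) (by nlinarith)

theorem mul_le_pred {d : ℕ} (hd : 1 ≤ d) : d * AR d ≤ 2 ^ aR d - 1 := by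
  have h1 := AR_bound hd
  have h2 := AR_pos d
  have h3 : d * AR d + 1 ≤ 2 * d * d * AR d := by
    have h4 : 1 ≤ d * AR d := Nat.mul_pos hd h2
    calc d * AR d + 1 ≤ 2 * (d * AR d) := by omega
      _ ≤ 2 * d * (d * AR d) := by
        apply Nat.mul_le_mul_right; omega
      _ = _ := by ring
  omega

theorem le_TR {d : ℕ} (hd : 1 ≤ d) : d ≤ TR d :=
  (Nat.le_div_iff_mul_le (AR_pos d)).2 (mul_le_pred hd)

theorem sR_pos (d j : ℕ) : 0 < sR d j := by unfold sR; omega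

theorem sR_le (d j : ℕ) : sR d j ≤ 2 ^ aR d := by
  have h1 : AR d * (TR d - j) ≤ 2 ^ aR d - 1 :=
    (Nat.mul_le_mul_left _ (Nat.sub_le _ _)).trans (Nat.mul_div_le _ _)
  have h2 : 1 ≤ 2 ^ aR d := Nat.one_le_two_pow
  unfold sR
  omega

/-- The moduli are close to the radix. -/
theorem le_sR {d j : ℕ} (hd : 1 ≤ d) (hj : j < d) : 2 ^ aR d ≤ sR d j + d * AR d := by
  have h0 := le_TR hd
  have h2 : 2 ^ aR d - 1 < AR d * TR d + AR d := by
    have := Nat.lt_div_mul_add (a := 2 ^ aR d - 1) (AR_pos d)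
    rwa [mul_comm] at this
  have h3 : 1 ≤ 2 ^ aR d := Nat.one_le_two_pow
  have h4 : AR d * TR d = AR d * (TR d - j) + AR d * j := by
    rw [← Nat.mul_add]; congr 1; omega
  have h5 : AR d * j + AR d ≤ d * AR d := by
    calc AR d * j + AR d = AR d * (j + 1) := by ring
      _ ≤ AR d * d := Nat.mul_le_mul_left _ hj
      _ = d * AR d := mul_comm _ _
  unfold sR
  omega

/-- The relative gap is at most `1 / (2 d)`. -/
theorem gap_sR {d j : ℕ} (hd : 1 ≤ d) (hj : j < d) :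
    (2 ^ aR d - sR d j) * (2 * d) ≤ 2 ^ aR d := by
  have h1 := le_sR hd hj
  calc (2 ^ aR d - sR d j) * (2 * d) ≤ (d * AR d) * (2 * d) :=
        Nat.mul_le_mul_right _ (by omega)
    _ = 2 * d * d * AR d := by ring
    _ ≤ _ := AR_bound hd

theorem radix_le_two_mul {d j : ℕ} (hd : 1 ≤ d) (hj : j < d) : 2 ^ aR d ≤ 2 * sR d j := by
  have h1 := gap_sR hd hj
  have h2 : (2 ^ aR d - sR d j) * 2 ≤ 2 ^ aR d :=
    (Nat.mul_le_mul_left _ (by omega)).trans h1
  omega

/-- All moduli are `1` modulo `2 d!`. -/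
theorem sR_mod {d m : ℕ} (hm : m ∣ AR d) (j : ℕ) : sR d j % m = 1 % m := by
  obtain ⟨e, he⟩ := hm
  unfold sR
  rw [he, mul_assoc, Nat.add_mul_mod_self_left]

theorem odd_sR (d j : ℕ) : Odd (sR d j) := by
  rw [Nat.odd_iff, sR_mod (Dvd.intro _ rfl)]

theorem eight_lt_sR {d j : ℕ} (hd : 1 ≤ d) (hj : j < d) : 8 ≤ sR d j := by
  have h1 := radix_le_two_mul hd hj
  have h2 : 2 ^ 4 ≤ 2 ^ aR d := Nat.pow_le_pow_right (by norm_num) (by unfold aR; nlinarith)
  omega

theorem sub_dvd_AR {d i j : ℕ} (hij : i < j) (hj : j < d) : j - i ∣ AR d :=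
  (Nat.dvd_factorial (by omega) (by omega)).mul_left 2

/-- `s_i = s_j + A (j - i)`. -/
theorem sR_eq_add {d i j : ℕ} (hd : 1 ≤ d) (hij : i ≤ j) (hj : j < d) :
    sR d i = sR d j + AR d * (j - i) := by
  have h0 := le_TR hd
  unfold sR
  rw [show TR d - i = (TR d - j) + (j - i) by omega]
  ring

/-- The inverse of `A` modulo `s_j` is `- (T - j)`. -/
theorem AR_inv (d j : ℕ) : (AR d * (TR d - j) + 1) % sR d j = 0 := by
  rw [show AR d * (TR d - j) + 1 = sR d j by unfold sR; ring, Nat.mod_self]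

/-- The inverse of `s_i` modulo `s_j`. -/
def invR (d i j : ℕ) : ℕ :=
  if i < j then (TR d - j) ^ 2 * (AR d / (j - i)) % sR d j
  else (sR d j - (TR d - j) ^ 2 * (AR d / (i - j)) % sR d j) % sR d j

theorem cast_AR (d j : ℕ) : (AR d : ZMod (sR d j)) * ((TR d - j : ℕ) : ZMod (sR d j)) = -1 := by
  have h : ((AR d * (TR d - j) + 1 : ℕ) : ZMod (sR d j)) = 0 := by
    rw [ZMod.natCast_eq_zero_iff]
    exact Nat.dvd_of_mod_eq_zero (AR_inv d j)
  push_cast at h
  exact eq_neg_of_add_eq_zero_left h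

theorem cast_sR_lt {d i j : ℕ} (hd : 1 ≤ d) (hij : i < j) (hj : j < d) :
    (sR d i : ZMod (sR d j)) = AR d * ((j - i : ℕ) : ZMod (sR d j)) := by
  rw [sR_eq_add hd hij.le hj]
  push_cast
  rw [ZMod.natCast_self, zero_add]

theorem cast_sR_gt {d i j : ℕ} (hd : 1 ≤ d) (hij : j < i) (hi : i < d) :
    (sR d i : ZMod (sR d j)) = -(AR d * ((i - j : ℕ) : ZMod (sR d j))) := by
  have h := sR_eq_add hd hij.le hi
  have h1 : ((sR d j : ℕ) : ZMod (sR d j)) = ((sR d i + AR d * (i - j) : ℕ) : ZMod (sR d j)) :=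
    congrArg (Nat.cast : ℕ → ZMod (sR d j)) h
  rw [ZMod.natCast_self] at h1
  push_cast at h1
  exact eq_neg_of_add_eq_zero_left h1.symm

theorem invR_spec {d i j : ℕ} (hd : 1 ≤ d) (hi : i < d) (hj : j < d) (hij : i ≠ j) :
    (sR d i : ZMod (sR d j)) * (invR d i j : ZMod (sR d j)) = 1 := by
  have hA := cast_AR d j
  have key : ∀ e : ℕ, 0 < e → e ∣ AR d → (AR d : ZMod (sR d j)) * (e : ZMod (sR d j)) *
      (((TR d - j : ℕ) : ZMod (sR d j)) ^ 2 * ((AR d / e : ℕ) : ZMod (sR d j))) = 1 := by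
    intro e he hed
    have h1 : (e : ZMod (sR d j)) * ((AR d / e : ℕ) : ZMod (sR d j)) = AR d := by
      rw [← Nat.cast_mul, Nat.mul_div_cancel' hed]
    calc (AR d : ZMod (sR d j)) * (e : ZMod (sR d j)) *
          (((TR d - j : ℕ) : ZMod (sR d j)) ^ 2 * ((AR d / e : ℕ) : ZMod (sR d j)))
        = (AR d : ZMod (sR d j)) * ((TR d - j : ℕ) : ZMod (sR d j)) ^ 2 *
          ((e : ZMod (sR d j)) * ((AR d / e : ℕ) : ZMod (sR d j))) := by ring
      _ = (AR d * ((TR d - j : ℕ) : ZMod (sR d j))) ^ 2 := by rw [h1]; ring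
      _ = 1 := by rw [hA]; ring
  rcases lt_or_gt_of_ne hij with h | h
  · rw [cast_sR_lt hd h hj, invR, if_pos h, ZMod.natCast_mod]
    push_cast
    exact key (j - i) (by omega) (sub_dvd_AR h hj)
  · rw [cast_sR_gt hd h hi, invR, if_neg (by omega), ZMod.natCast_mod]
    have hle : (TR d - j) ^ 2 * (AR d / (i - j)) % sR d j ≤ sR d j :=
      (Nat.mod_lt _ (sR_pos d j)).le
    rw [Nat.cast_sub hle, ZMod.natCast_self, ZMod.natCast_mod, zero_sub]
    have := key (i - j) (by omega) (sub_dvd_AR h hi)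
    push_cast at this ⊢
    rw [neg_mul_neg]
    exact this

theorem invR_mod {d i j : ℕ} (hd : 1 ≤ d) (hi : i < d) (hj : j < d) (hij : i ≠ j) :
    sR d i * invR d i j % sR d j = 1 := by
  have h := invR_spec hd hi hj hij
  have h2 : ((sR d i * invR d i j : ℕ) : ZMod (sR d j)) = ((1 : ℕ) : ZMod (sR d j)) := by
    push_cast; exact h
  rw [ZMod.natCast_eq_natCast_iff'] at h2
  rw [h2]
  exact Nat.mod_eq_of_lt (by have := eight_lt_sR hd hj; omega)

theorem coprime_sR {d i j : ℕ} (hd : 1 ≤ d) (hi : i < d) (hj : j < d) (hij : i ≠ j) :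
    Nat.Coprime (sR d i) (sR d j) := by
  have h := invR_mod hd hi hj hij
  rw [Nat.coprime_iff_gcd_eq_one]
  have h1 : Nat.gcd (sR d i) (sR d j) ∣ 1 := by
    rw [← h]
    exact (Nat.dvd_mod_iff (Nat.gcd_dvd_right _ _)).2 ((Nat.gcd_dvd_left _ _).mul_right _)
  exact Nat.dvd_one.1 h1

theorem pairwise_sR {d : ℕ} (hd : 1 ≤ d) :
    Set.Pairwise (↑(range d) : Set ℕ) fun i j => Nat.Coprime (sR d i) (sR d j) := by
  intro i hi j hj hij
  exact coprime_sR hd (by simpa using hi) (by simpa using hj) hij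

/-- The number of cells (of one of the problems). -/
def NR (d : ℕ) : ℕ := ∏ j ∈ range d, sR d j

theorem NR_le (d : ℕ) : NR d ≤ (2 ^ aR d) ^ d := by
  calc ∏ i ∈ range d, sR d i ≤ ∏ _i ∈ range d, 2 ^ aR d :=
        prod_le_prod' fun i _ => sR_le d i
    _ = (2 ^ aR d) ^ d := by simp

theorem NR_pos (d : ℕ) : 0 < NR d := prod_pos fun j _ => sR_pos d j

/-- Bernoulli: the product of the moduli is at least half the product of the radices. -/
theorem le_NR {d : ℕ} (hd : 1 ≤ d) : (2 ^ aR d) ^ d ≤ 2 * NR d := by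
  have hd0 : (0 : ℝ) < 2 * d := by
    have : (1 : ℝ) ≤ d := by exact_mod_cast hd
    linarith
  have key : ∀ n : ℕ, n ≤ d → ((2 : ℝ) ^ aR d) ^ n * (1 - n / (2 * d)) ≤
      ∏ i ∈ range n, (sR d i : ℝ) := by
    intro n
    induction n with
    | zero => intro _; simp
    | succ n ih =>
      intro hn
      have ih := ih (by omega)
      rw [prod_range_succ, pow_succ]
      have hq : (2 : ℝ) ^ aR d * (1 - 1 / (2 * d)) ≤ sR d n := by
        have h1 := gap_sR hd (show n < d by omega)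
        have h2 : ((2 ^ aR d - sR d n : ℕ) : ℝ) * (2 * d) ≤ 2 ^ aR d := by exact_mod_cast h1
        have h3 : ((2 ^ aR d - sR d n : ℕ) : ℝ) = 2 ^ aR d - sR d n := by
          rw [Nat.cast_sub (sR_le d n)]; push_cast; rfl
        rw [h3] at h2
        have h5 : (2 : ℝ) ^ aR d - sR d n ≤ 2 ^ aR d / (2 * d) := by
          rw [le_div_iff₀ hd0]; exact h2
        have h6 : (2 : ℝ) ^ aR d * (1 - 1 / (2 * d)) = 2 ^ aR d - 2 ^ aR d / (2 * d) := by ring
        rw [h6]; linarith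
      have hd1 : (1 : ℝ) ≤ d := by exact_mod_cast hd
      have hnd : (n : ℝ) ≤ d := by exact_mod_cast (by omega : n ≤ d)
      have h7 : (0 : ℝ) ≤ 1 - n / (2 * d) := by
        rw [sub_nonneg, div_le_one hd0]; linarith
      have h8 : (0 : ℝ) ≤ 1 - 1 / (2 * d) := by
        rw [sub_nonneg, div_le_one hd0]; linarith
      calc ((2 : ℝ) ^ aR d) ^ n * 2 ^ aR d * (1 - (n + 1 : ℕ) / (2 * d))
          ≤ ((2 : ℝ) ^ aR d) ^ n * 2 ^ aR d * ((1 - n / (2 * d)) * (1 - 1 / (2 * d))) := by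
            apply mul_le_mul_of_nonneg_left _ (by positivity)
            push_cast
            have h9 : (0 : ℝ) ≤ n / (2 * d) * (1 / (2 * d)) := by positivity
            have h10 : ((n : ℝ) + 1) / (2 * d) = n / (2 * d) + 1 / (2 * d) := by ring
            rw [h10]; nlinarith
        _ = (((2 : ℝ) ^ aR d) ^ n * (1 - n / (2 * d))) * (2 ^ aR d * (1 - 1 / (2 * d))) := by ring
        _ ≤ (∏ i ∈ range n, (sR d i : ℝ)) * sR d n := by
            apply mul_le_mul ih hq (mul_nonneg (by positivity) h8)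
            exact prod_nonneg fun _ _ => by positivity
  have h1 := key d le_rfl
  have h2 : (d : ℝ) / (2 * d) = 1 / 2 := by
    have : (d : ℝ) ≠ 0 := by
      have : (1 : ℝ) ≤ d := by exact_mod_cast hd
      linarith
    field_simp
  rw [h2] at h1
  have h5 : (((2 ^ aR d) ^ d : ℕ) : ℝ) ≤ ((2 * NR d : ℕ) : ℝ) := by
    push_cast [NR]
    linarith
  exact_mod_cast h5

end Vale.Agent.P338.R3.H501.Rad
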