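import Vale.Agent.P338.R3.H501.RadPT
import Vale.Agent.P338.R3.H501.Rad2

/-!
P338-D: the moduli of `Rad2` are computable in polynomial time (`d` polynomially bounded, for
instance given in unary).
-/

namespace Vale.Agent.P338.R3.H501.Rad

open Vale.Agent.Lib.PolyTime
open Vale.Agent.P338.R3.H501 (Rad3.sG Rad3.invG Rad3.TG Rad3.AG)

theorem AR_eq (d : ℕ) : AR d = Rad3.AG d := rfl
theorem TR_eq (d : ℕ) : TR d = Rad3.TG d (aR d) := rfl
theorem sR_eq (d j : ℕ) : sR d j = Rad3.sG d (aR d) j := rfl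
theorem invR_eq (d i j : ℕ) : invR d i j = Rad3.invG d (aR d) i j := rfl
theorem NR_eq (d : ℕ) : NR d = Rad3.LG d (aR d) := rfl

theorem big_aR {d : ℕ} (hd : 1 ≤ d) : Rad3.Big 1 d (aR d) := by
  have h := AR_bound hd
  have h1 : 2 * 1 * d * (d * Rad3.AG d) = 2 * d * d * AR d := by rw [AR_eq]; ring
  unfold Rad3.Big
  rw [h1]
  exact h

variable {A : Set Word} {α : Type*} [Enc α]

theorem pbd_aR {d : α → ℕ} (hb : PBd d) : PBd (fun x => aR (d x)) := by
  unfold aR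
  fun_prop

theorem pt_aR {d : α → ℕ} (hd : PT A d) : PT A (fun x => aR (d x)) := by
  unfold aR
  fun_prop

theorem pt_AR {d : α → ℕ} (hd : PT A d) (hb : PBd d) : PT A (fun x => AR (d x)) :=
  Rad3.pt_AG hd hb

theorem pt_TR {d : α → ℕ} (hd : PT A d) (hb : PBd d) : PT A (fun x => TR (d x)) :=
  Rad3.pt_TG hd hb (pt_aR hd) (pbd_aR hb)

theorem pt_sR {d j : α → ℕ} (hd : PT A d) (hb : PBd d) (hj : PT A j) :
    PT A (fun x => sR (d x) (j x)) :=
  Rad3.pt_sG hd hb (pt_aR hd) (pbd_aR hb) hj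

theorem pt_invR {d i j : α → ℕ} (hd : PT A d) (hb : PBd d) (hi : PT A i) (hj : PT A j) :
    PT A (fun x => invR (d x) (i x) (j x)) :=
  Rad3.pt_invG hd hb (pt_aR hd) (pbd_aR hb) hi hj

/-- The list of the moduli. -/
theorem pt_sRs {d : α → ℕ} (hd : PT A d) (hb : PBd d) :
    PT A (fun x => (List.range (d x)).map (sR (d x))) :=
  Rad3.pt_sGs hd hb (pt_aR hd) (pbd_aR hb)

theorem pt_NR {d : α → ℕ} (hd : PT A d) (hb : PBd d) : PT A (fun x => NR (d x)) := by
  refine (PT.prod (pt_sRs hd hb)).congr fun x => ?_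
  unfold NR
  rw [← List.prod_toFinset _ List.nodup_range]
  congr 1
  ext; simp

end Vale.Agent.P338.R3.H501.Rad
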