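import Vale.Agent.P338.R3.H501.GeoPT
import Vale.Agent.P338.R3.H900.Prod

/-!
P338-D, module DIAG-PT (2): the values of all diagonal codes can be approximated in polynomial
time.
-/

namespace Vale.Agent.P338.R3.H501

open Vale.Agent.Lib.PolyTime
open Vale.Agent.P338.R3.H282
open Vale.Agent.P338.R3.H955
open Vale.Agent.P338.R3.H900
open Vale.Agent.P338.R3.H352 (zt)

variable {A : Set Word} {α β γ : Type*} {δ : Type} [Enc α] [Enc β] [Enc γ] [Enc δ] [Inhabited δ]

/-! ### Tools -/

theorem cpt_zt {N : α → ℕ} {k : α → ℤ} (hN : PT A N) (hk : PT A k) :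
    CPT A (fun x => zt (N x) (k x)) :=
  (CPT.root hk hN).congr fun x => by
    unfold Vale.Agent.P338.R3.H352.zt
    rw [mul_div_assoc]

theorem prod_map_getD (l : List ℕ) (z : ℕ → ℂ) :
    ∏ i ∈ Finset.range l.length, z (l.getD i 0) = (l.map z).prod := by
  induction l with
  | nil => simp
  | cons a l ih =>
    rw [List.length_cons, Finset.prod_range_succ', List.map_cons, List.prod_cons, ← ih, mul_comm]
    simp

theorem cpt_prodList {l : α → List ℕ} {z : α → ℕ → ℂ} (hl : PT A l)
    (hz : CPT A (fun p : α × ℕ => z p.1 p.2)) : CPT A (fun x => ((l x).map (z x)).prod) := by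
  have h1 : PT A (fun p : α × ℕ => (l p.1).getD p.2 0) :=
    PT.getD (hl.comp PT.fst') PT.snd' (PT.const 0)
  exact (CPT.prodRange (z := fun x i => z x ((l x).getD i 0)) hl.length (PBd.length hl)
    (hz.comp (PT.fst'.pair h1))).congr fun x => prod_map_getD _ _

theorem prod_filter_range (n : ℕ) (P : ℕ → Prop) [DecidablePred P] (z : ℕ → ℂ) :
    (((List.range n).filter fun i => P i).map z).prod =
      ∏ i ∈ Finset.range n, if P i then z i else 1 := by
  induction n with
  | zero => simp
  | succ n ih =>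
    rw [List.range_succ, List.filter_append, List.map_append, List.prod_append, ih,
      Finset.prod_range_succ]
    congr 1
    by_cases h : P n <;> simp [h]

/-- Product over the digits satisfying a condition; the factors are only computable for bounded
indices. -/
theorem cpt_prodFilter {n : α → ℕ} {P : α → ℕ → Prop} [∀ x, DecidablePred (P x)] {z : α → ℕ → ℂ}
    (hn : PT A n) (hnb : PBd n) (hP : PT A (fun p : α × ℕ => decide (P p.1 p.2)))
    (hz : CPT A (fun p : α × ℕ => z p.1 (min p.2 (n p.1)))) :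
    CPT A (fun x => (((List.range (n x)).filter fun i => P x i).map (z x)).prod) := by
  refine (CPT.prodRange (z := fun x i => if P x i then z x (min i (n x)) else 1) hn hnb
    (CPT.ite hP hz CPT.one)).congr fun x => ?_
  rw [prod_filter_range]
  refine Finset.prod_congr rfl fun i hi => ?_
  rw [Finset.mem_range] at hi
  rw [min_eq_left hi.le]

/-! ### Phases -/

theorem cpt_ph {G : α → Geo} (h : GeoPT A G) {neg : α → Bool} {u i w : α → ℕ} (hn : PT A neg)
    (hu : PT A u) (hi : PT A i) (hw : PT A w) :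
    CPT A (fun x => (G x).ph (neg x) (u x) (i x) (w x)) := by
  unfold Geo.ph
  have hq : PT A (fun x => (G x).q (i x)) := h.q.comp (PT.id.pair hi)
  have hrb := h.rb hu hi
  have heq : PT A (fun x => decide ((G x).rb (u x) (i x) = neg x)) :=
    ((hrb.xor hn).not).congr fun x => by
      cases (G x).rb (u x) (i x) <;> cases neg x <;> rfl
  have hs : PT A (fun x => if (G x).rb (u x) (i x) = neg x then (-1 : ℤ) else 1) :=
    PT.ite heq (PT.const (-1)) (PT.const 1)
  exact (cpt_zt hq (hs.intMul ((h.dv hu hi).natCast.intMul hw.natCast))).neg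

/-! ### Codes -/

/-- The components of a diagonal code. -/
def DCt : DC δ → ℕ × List ℕ × δ × Bool × ℕ
  | .loc J c => (0, J, c, false, 0)
  | .shA neg p => (1, [], default, neg, p)
  | .shB neg g => (2, [], default, neg, g)
  | .hd i => (3, [], default, false, i)
  | .tw inv i => (4, [], default, inv, i)
  | .corr => (5, [], default, false, 0)

instance : Enc (DC δ) := ⟨fun c => enc (DCt c)⟩

theorem pt_DCt {c : α → DC δ} (hc : PT A c) : PT A (fun x => DCt (c x)) := by
  obtain ⟨g, hg, hg'⟩ := hc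
  exact ⟨g, hg, fun a => hg' a⟩

theorem pt_of_DCt {c : α → DC δ} (hc : PT A (fun x => DCt (c x))) : PT A c := by
  obtain ⟨g, hg, hg'⟩ := hc
  exact ⟨g, hg, fun a => hg' a⟩

theorem pt_loc {J : α → List ℕ} {c : α → δ} (hJ : PT A J) (hc : PT A c) :
    PT A (fun x => DC.loc (J x) (c x)) :=
  pt_of_DCt ((PT.const 0).pair (hJ.pair (hc.pair ((PT.const false).pair (PT.const 0)))))

theorem pt_shA {b : α → Bool} {p : α → ℕ} (hb : PT A b) (hp : PT A p) :
    PT A (fun x => (DC.shA (b x) (p x) : DC δ)) :=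
  pt_of_DCt ((PT.const 1).pair ((PT.const []).pair ((PT.const default).pair (hb.pair hp))))

theorem pt_shB {b : α → Bool} {p : α → ℕ} (hb : PT A b) (hp : PT A p) :
    PT A (fun x => (DC.shB (b x) (p x) : DC δ)) :=
  pt_of_DCt ((PT.const 2).pair ((PT.const []).pair ((PT.const default).pair (hb.pair hp))))

theorem pt_hd {p : α → ℕ} (hp : PT A p) : PT A (fun x => (DC.hd (p x) : DC δ)) :=
  pt_of_DCt ((PT.const 3).pair ((PT.const []).pair ((PT.const default).pair
    ((PT.const false).pair hp))))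

theorem pt_tw {b : α → Bool} {p : α → ℕ} (hb : PT A b) (hp : PT A p) :
    PT A (fun x => (DC.tw (b x) (p x) : DC δ)) :=
  pt_of_DCt ((PT.const 4).pair ((PT.const []).pair ((PT.const default).pair (hb.pair hp))))

/-! ### The values -/

section value

variable {G : α → Geo} {u : α → ℕ}

theorem cpt_shA (h : GeoPT A G) {neg : α → Bool} {p : α → ℕ} (hn : PT A neg) (hp : PT A p)
    (hu : PT A u) :
    CPT A (fun x => (((G x).posJ (p x)).map fun i =>
      (G x).ph (neg x) (u x) i ((G x).wa (u x) i)).prod) := by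
  unfold Geo.posJ
  have hm : PT A (fun q : α × ℕ => min q.2 (G q.1).d) := PT.min PT.snd' (h.d.comp PT.fst')
  have hmb : PBd (fun q : α × ℕ => min q.2 (G q.1).d) :=
    (PBd.comp (A := A) (b := fun x => (G x).d) h.db (PT.fst' : PT A (fun q : α × ℕ => q.1))).mono
      fun _ => min_le_right _ _
  have h' := h.comp (PT.fst' : PT A (fun q : α × ℕ => q.1))
  exact cpt_prodFilter (P := fun x i => i % (G x).gs = p x)
    (z := fun x i => (G x).ph (neg x) (u x) i ((G x).wa (u x) i)) h.d h.db
    (PT.eqNat (PT.mod PT.snd' (h.gs.comp PT.fst')) (hp.comp PT.fst'))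
    (cpt_ph h' (hn.comp PT.fst') (hu.comp PT.fst') hm (h'.wa (hu.comp PT.fst') hm hmb))

theorem cpt_shB (h : GeoPT A G) {neg : α → Bool} {p : α → ℕ} (hn : PT A neg) (hp : PT A p)
    (hu : PT A u) :
    CPT A (fun x => (((G x).grpJ (p x)).map fun i =>
      (G x).ph (neg x) (u x) i ((G x).wb (u x) i)).prod) := by
  unfold Geo.grpJ
  have hm : PT A (fun q : α × ℕ => min q.2 (G q.1).d) := PT.min PT.snd' (h.d.comp PT.fst')
  have hmb : PBd (fun q : α × ℕ => min q.2 (G q.1).d) :=
    (PBd.comp (A := A) (b := fun x => (G x).d) h.db (PT.fst' : PT A (fun q : α × ℕ => q.1))).mono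
      fun _ => min_le_right _ _
  have h' := h.comp (PT.fst' : PT A (fun q : α × ℕ => q.1))
  exact cpt_prodFilter (P := fun x i => i / (G x).gs = p x)
    (z := fun x i => (G x).ph (neg x) (u x) i ((G x).wb (u x) i)) h.d h.db
    (PT.eqNat (PT.div PT.snd' (h.gs.comp PT.fst')) (hp.comp PT.fst'))
    (cpt_ph h' (hn.comp PT.fst') (hu.comp PT.fst') hm (h'.wb (hu.comp PT.fst') hm hmb))

theorem rb_false_of_le {G : Geo} {u i : ℕ} (h : esize u ≤ i) : G.rb u i = false := by
  unfold Geo.rb
  apply Nat.testBit_lt_two_pow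
  exact (lt_two_pow_esize' u).trans_le (Nat.pow_le_pow_right (by norm_num) (by omega))

theorem cpt_tw (h : GeoPT A G) {inv : α → Bool} {i : α → ℕ} (hn : PT A inv) (hi : PT A i)
    (hu : PT A u) :
    CPT A (fun x => if (G x).rb (u x) (i x) then
      zt (2 ^ (i x + 1) * (G x).N) ((if inv x then -1 else 1) *
        ((((G x).sv (u x) % 2 ^ i x) * (G x).N + (G x).dj (u x) : ℕ) : ℤ)) else 1) := by
  have hm := pt_min_esize hu hi
  have hmb := pbd_min_esize hu i
  have hpow : PT A (fun x => 2 ^ (min (i x) (esize (u x)) + 1)) :=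
    PT.pow (PT.const 2) (PT.add hm (PT.const 1)) (hmb.add (PBd.const 1))
  have hsg : PT A (fun x => if inv x = true then (-1 : ℤ) else 1) :=
    PT.ite (hn.congr fun x => by simp) (PT.const (-1)) (PT.const 1)
  have hk : PT A (fun x => ((((G x).sv (u x) % 2 ^ i x) * (G x).N + (G x).dj (u x) : ℕ) : ℤ)) :=
    (PT.add (PT.mul (pt_modPow (h.sv hu) hi) h.N) (h.dj hu)).natCast
  have hz := cpt_zt (PT.mul hpow h.N) (hsg.intMul hk)
  refine (CPT.cond (h.rb hu hi) hz CPT.one).congr fun x => ?_
  by_cases hx : esize (u x) ≤ i x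
  · rw [rb_false_of_le hx]; rfl
  · rw [min_eq_left (by omega)]
    cases (G x).rb (u x) (i x) <;> rfl

theorem cpt_corr (h : GeoPT A G) (hu : PT A u) :
    CPT A (fun x => (-1) ^ (G x).d / 2 ^ (G x).s *
      ((List.range (G x).d).map fun i => if (G x).rb (u x) i then 1 else -((G x).q i : ℂ)).prod) := by
  have h1 : CPT A (fun x => (-1 : ℂ) ^ (G x).d) :=
    CPT.pow ((CPT.intConst (-1)).congr fun _ => by simp) h.d h.db
  have h2 : CPT A (fun x => (-1 : ℂ) ^ (G x).d / ((2 ^ (G x).s : ℕ) : ℂ)) :=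
    h1.divNat (PT.pow (PT.const 2) h.s h.sb)
  have h' := h.comp (PT.fst' : PT A (fun q : α × ℕ => q.1))
  have h3 : CPT A (fun x => ((List.range (G x).d).map fun i =>
      if (G x).rb (u x) i then 1 else -((G x).q i : ℂ)).prod) := by
    refine cpt_prodList (z := fun x i => if (G x).rb (u x) i then 1 else -((G x).q i : ℂ))
      (PT.range h.d h.db) ?_
    refine (CPT.cond (h'.rb (hu.comp PT.fst') PT.snd') CPT.one (CPT.nat h.q).neg).congr fun x => ?_
    cases (G x.1).rb (u x.1) x.2 <;> rfl
  refine (h2.mul h3).congr fun x => ?_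
  push_cast
  rfl

/-- **The values of all diagonal codes can be approximated in polynomial time.** -/
theorem cpt_val (h : GeoPT A G) {lv : α → ℕ → δ → ℕ → ℂ} {c : α → DC δ} (hc : PT A c)
    (hu : PT A u)
    (hlv : ∀ e : α → δ, PT A e →
      CPT A (fun p : α × ℕ => lv p.1 ((G p.1).q p.2) (e p.1) ((G p.1).lp (u p.1) p.2))) :
    CPT A (fun x => (G x).val (lv x) (c x) (u x)) := by
  have ht := pt_DCt hc
  have h0 := cpt_prodList (l := fun x => (DCt (c x)).2.1)
    (z := fun x i => lv x ((G x).q i) (DCt (c x)).2.2.1 ((G x).lp (u x) i)) ht.snd.fst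
    (hlv (fun x => (DCt (c x)).2.2.1) ht.snd.snd.fst)
  have h1 := cpt_shA h ht.snd.snd.snd.fst ht.snd.snd.snd.snd hu
  have h2 := cpt_shB h ht.snd.snd.snd.fst ht.snd.snd.snd.snd hu
  have h3 : CPT A (fun x => bif (G x).rb (u x) (DCt (c x)).2.2.2.2 then (-2 : ℂ) else 1) :=
    CPT.cond (h.rb hu ht.snd.snd.snd.snd) ((CPT.intConst (-2)).congr fun _ => by simp) CPT.one
  have h4 := cpt_tw h ht.snd.snd.snd.fst ht.snd.snd.snd.snd hu
  have h5 := cpt_corr h hu
  have e : ∀ k : ℕ, PT A (fun x => decide ((DCt (c x)).1 = k)) := fun k =>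
    PT.eqNat ht.fst (PT.const k)
  refine (CPT.ite (e 0) h0 (CPT.ite (e 1) h1 (CPT.ite (e 2) h2 (CPT.ite (e 3) h3
    (CPT.ite (e 4) h4 h5))))).congr fun x => ?_
  have key : ∀ c : DC δ,
      (if (DCt c).1 = 0 then
        ((DCt c).2.1.map fun i => lv x ((G x).q i) (DCt c).2.2.1 ((G x).lp (u x) i)).prod
      else if (DCt c).1 = 1 then
        (((G x).posJ (DCt c).2.2.2.2).map fun i =>
          (G x).ph (DCt c).2.2.2.1 (u x) i ((G x).wa (u x) i)).prod
      else if (DCt c).1 = 2 then
        (((G x).grpJ (DCt c).2.2.2.2).map fun i =>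
          (G x).ph (DCt c).2.2.2.1 (u x) i ((G x).wb (u x) i)).prod
      else if (DCt c).1 = 3 then
        bif (G x).rb (u x) (DCt c).2.2.2.2 then (-2 : ℂ) else 1
      else if (DCt c).1 = 4 then
        (if (G x).rb (u x) (DCt c).2.2.2.2 = true then
          zt (2 ^ ((DCt c).2.2.2.2 + 1) * (G x).N) ((if (DCt c).2.2.2.1 = true then -1 else 1) *
            ((((G x).sv (u x) % 2 ^ (DCt c).2.2.2.2) * (G x).N + (G x).dj (u x) : ℕ) : ℤ)) else 1)
      else (-1) ^ (G x).d / 2 ^ (G x).s *
        ((List.range (G x).d).map fun i =>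
          if (G x).rb (u x) i = true then 1 else -((G x).q i : ℂ)).prod) =
      (G x).val (lv x) c (u x) := by
    intro c
    cases c with
    | loc J c => exact if_pos rfl
    | shA b p => exact (if_neg (by simp [DCt])).trans (if_pos rfl)
    | shB b p => exact (if_neg (by simp [DCt])).trans ((if_neg (by simp [DCt])).trans (if_pos rfl))
    | hd i =>
      refine (if_neg (by simp [DCt])).trans ((if_neg (by simp [DCt])).trans ((if_neg (by simp [DCt])).trans
        ((if_pos rfl).trans ?_)))
      simp only [Geo.val, DCt]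
      cases (G x).rb (u x) i <;> rfl
    | tw b i =>
      exact (if_neg (by simp [DCt])).trans ((if_neg (by simp [DCt])).trans ((if_neg (by simp [DCt])).trans
        ((if_neg (by simp [DCt])).trans (if_pos rfl))))
    | corr =>
      exact (if_neg (by simp [DCt])).trans ((if_neg (by simp [DCt])).trans ((if_neg (by simp [DCt])).trans
        ((if_neg (by simp [DCt])).trans (if_neg (by simp [DCt])))))
  exact key (c x)

end value

end Vale.Agent.P338.R3.H501
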