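import Vale.Agent.P338.R3.H282.Step
import Vale.Agent.P338.R3.H955.CrtPT
import Vale.Agent.Lib.PolyTime.Bitwise

/-!
P338-D, module DIAG-PT (1): the geometry of the array (`Geo` of `H282.Step`) in polynomial time.
-/

namespace Vale.Agent.P338.R3.H501

open Vale.Agent.Lib.PolyTime
open Vale.Agent.P338.R3.H282
open Vale.Agent.P338.R3.H955

variable {A : Set Word} {α β γ : Type*} [Enc α] [Enc β] [Enc γ]

/-! ### Shifts by arbitrary amounts -/

theorem lt_two_pow_esize' (n : ℕ) : n < 2 ^ esize n := by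
  rw [esize_nat]; exact Nat.lt_size_self n

theorem div_two_pow_min (n k : ℕ) : n / 2 ^ min k (esize n) = n / 2 ^ k := by
  rcases le_total k (esize n) with h | h
  · rw [min_eq_left h]
  · rw [min_eq_right h, Nat.div_eq_of_lt (lt_two_pow_esize' n),
      Nat.div_eq_of_lt ((lt_two_pow_esize' n).trans_le (Nat.pow_le_pow_right (by norm_num) h))]

theorem mod_two_pow_min (n k : ℕ) : n % 2 ^ min k (esize n) = n % 2 ^ k := by
  rcases le_total k (esize n) with h | h
  · rw [min_eq_left h]
  · rw [min_eq_right h, Nat.mod_eq_of_lt (lt_two_pow_esize' n),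
      Nat.mod_eq_of_lt ((lt_two_pow_esize' n).trans_le (Nat.pow_le_pow_right (by norm_num) h))]

theorem pt_min_esize {u k : α → ℕ} (hu : PT A u) (hk : PT A k) :
    PT A (fun x => min (k x) (esize (u x))) := PT.min hk (PT.size hu)

theorem pbd_min_esize {u : α → ℕ} (hu : PT A u) (k : α → ℕ) :
    PBd (fun x => min (k x) (esize (u x))) := hu.pbd.mono fun _ => min_le_right _ _

theorem pt_shr {u k : α → ℕ} (hu : PT A u) (hk : PT A k) : PT A (fun x => u x / 2 ^ k x) :=
  (PT.div hu (PT.pow (PT.const 2) (pt_min_esize hu hk) (pbd_min_esize hu k))).congr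
    fun _ => div_two_pow_min _ _

theorem pt_modPow {u k : α → ℕ} (hu : PT A u) (hk : PT A k) : PT A (fun x => u x % 2 ^ k x) :=
  (PT.mod hu (PT.pow (PT.const 2) (pt_min_esize hu hk) (pbd_min_esize hu k))).congr
    fun _ => mod_two_pow_min _ _

/-! ### The geometry -/

/-- The geometry is computable in polynomial time. -/
structure GeoPT (A : Set Word) {α : Type*} [Enc α] (G : α → Geo) : Prop where
  /-- bits per digit -/
  a : PT A (fun x => (G x).a)
  /-- bounded -/
  ab : PBd (fun x => (G x).a)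
  /-- number of digits -/
  d : PT A (fun x => (G x).d)
  /-- bounded -/
  db : PBd (fun x => (G x).d)
  /-- number of selector bits -/
  s : PT A (fun x => (G x).s)
  /-- bounded -/
  sb : PBd (fun x => (G x).s)
  /-- group size -/
  gs : PT A (fun x => (G x).gs)
  /-- bounded -/
  gsb : PBd (fun x => (G x).gs)
  /-- number of the last group -/
  t : PT A (fun x => (G x).t)
  /-- bounded -/
  tb : PBd (fun x => (G x).t)
  /-- radices -/
  q : PT A (fun p : α × ℕ => (G p.1).q p.2)
  /-- the radices are positive -/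
  q0 : ∀ x k, 0 < (G x).q k
  /-- inverses -/
  iv : PT A (fun p : α × ℕ × ℕ => (G p.1).iv p.2.1 p.2.2)

namespace GeoPT

variable {G : α → Geo}

theorem comp (h : GeoPT A G) {g : β → α} (hg : PT A g) : GeoPT A (fun y => G (g y)) where
  a := h.a.comp hg
  ab := PBd.comp (A := A) (b := fun x => (G x).a) h.ab hg
  d := h.d.comp hg
  db := PBd.comp (A := A) (b := fun x => (G x).d) h.db hg
  s := h.s.comp hg
  sb := PBd.comp (A := A) (b := fun x => (G x).s) h.sb hg
  gs := h.gs.comp hg
  gsb := PBd.comp (A := A) (b := fun x => (G x).gs) h.gsb hg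
  t := h.t.comp hg
  tb := PBd.comp (A := A) (b := fun x => (G x).t) h.tb hg
  q := h.q.comp ((hg.comp PT.fst').pair PT.snd')
  q0 := fun y k => h.q0 (g y) k
  iv := h.iv.comp ((hg.comp PT.fst').pair PT.snd')

theorem dv (h : GeoPT A G) {u i : α → ℕ} (hu : PT A u) (hi : PT A i) :
    PT A (fun x => (G x).dv (u x) (i x)) := by
  unfold Geo.dv
  exact pt_modPow (pt_shr hu (PT.mul h.a hi)) h.a

theorem rb (h : GeoPT A G) {u i : α → ℕ} (hu : PT A u) (hi : PT A i) :
    PT A (fun x => (G x).rb (u x) (i x)) := by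
  unfold Geo.rb
  exact PT.testBit hu (PT.add (PT.mul h.a h.d) hi)

theorem lp (h : GeoPT A G) {u i : α → ℕ} (hu : PT A u) (hi : PT A i) :
    PT A (fun x => (G x).lp (u x) (i x)) := by
  unfold Geo.lp
  have h1 : PT A (fun x => if (G x).rb (u x) (i x) = true then 2 ^ (G x).a else 0) :=
    PT.ite ((h.rb hu hi).congr fun x => by simp) (PT.pow (PT.const 2) h.a h.ab) (PT.const 0)
  exact PT.add h1 (h.dv hu hi)

theorem sv (h : GeoPT A G) {u : α → ℕ} (hu : PT A u) : PT A (fun x => (G x).sv (u x)) := by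
  unfold Geo.sv
  exact pt_shr hu (PT.mul h.a h.d)

theorem N (h : GeoPT A G) : PT A (fun x => (G x).N) := by
  unfold Geo.N
  exact pt_up h.q (PT.const 0) h.d h.db

theorem dj (h : GeoPT A G) {u : α → ℕ} (hu : PT A u) : PT A (fun x => (G x).dj (u x)) := by
  unfold Geo.dj
  exact pt_mv h.q ((h.comp PT.fst').dv (hu.comp PT.fst') PT.snd') (PT.const 0) h.d h.db

theorem idx (h : GeoPT A G) {u : α → ℕ} (hu : PT A u) : PT A (fun x => (G x).idx (u x)) := by
  unfold Geo.idx
  exact PT.add (PT.mul (h.sv hu) h.N) (h.dj hu)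

theorem valid (h : GeoPT A G) {u : α → ℕ} (hu : PT A u) : PT A (fun x => (G x).valid (u x)) := by
  unfold Geo.valid
  refine PT.all (f := fun x i => decide ((G x).dv (u x) i < (G x).q i)) (PT.range h.d h.db) ?_
  exact PT.lt ((h.comp PT.fst').dv (hu.comp PT.fst') PT.snd') h.q

theorem wa (h : GeoPT A G) {u i : α → ℕ} (hu : PT A u) (hi : PT A i) (hib : PBd i) :
    PT A (fun x => (G x).wa (u x) (i x)) := by
  unfold Geo.wa
  exact pt_wloc h.q h.iv h.gs hi hib ((h.comp PT.fst').dv (hu.comp PT.fst') PT.snd')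

theorem wb (h : GeoPT A G) {u i : α → ℕ} (hu : PT A u) (hi : PT A i) (hib : PBd i) :
    PT A (fun x => (G x).wb (u x) (i x)) :=
  pt_wgl h.q h.q0 h.iv h.gs hi hib ((h.comp PT.fst').dv (hu.comp PT.fst') PT.snd')

theorem posJ (h : GeoPT A G) {p : α → ℕ} (hp : PT A p) : PT A (fun x => (G x).posJ (p x)) := by
  unfold Geo.posJ
  refine PT.filter (f := fun x i => decide (i % (G x).gs = p x)) (PT.range h.d h.db) ?_
  exact PT.eqNat (PT.mod PT.snd' (h.gs.comp PT.fst')) (hp.comp PT.fst')

theorem grpJ (h : GeoPT A G) {p : α → ℕ} (hp : PT A p) : PT A (fun x => (G x).grpJ (p x)) := by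
  unfold Geo.grpJ
  refine PT.filter (f := fun x i => decide (i / (G x).gs = p x)) (PT.range h.d h.db) ?_
  exact PT.eqNat (PT.div PT.snd' (h.gs.comp PT.fst')) (hp.comp PT.fst')

theorem bp (h : GeoPT A G) {t i : α → ℕ} (ht : PT A t) (hi : PT A i) :
    PT A (fun x => (G x).bp (t x) (i x)) := by
  unfold Geo.bp
  exact PT.ite (PT.lt ht h.a) (PT.add (PT.mul h.a hi) ht) (PT.add (PT.mul h.a h.d) hi)

end GeoPT

end Vale.Agent.P338.R3.H501
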