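import Mathlib

/-!
P338-D: the radix `R = 2 ^ a` and the `g` pairwise coprime odd moduli
`s_j = 1 + A (T - j)`, `j < g`, `A = 2 g!`, `T = (R - 1) / A`, just below it; explicit inverses.
`Big D g a : 2 D g (g A) ≤ 2 ^ a` is the only hypothesis (`D` = number of super-digits, each of
which consists of `g` digits); `aG D g` is the least such `a` (up to one).
-/

namespace Vale.Agent.P338.R3.H501.Rad3

open Finset

/-- The difference of two consecutive moduli. -/
def AG (g : ℕ) : ℕ := 2 * g.factorial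

/-- The largest quotient. -/
def TG (g a : ℕ) : ℕ := (2 ^ a - 1) / AG g

/-- The moduli. -/
def sG (g a j : ℕ) : ℕ := 1 + AG g * (TG g a - j)

/-- The product of the moduli (the length of a super-digit). -/
def LG (g a : ℕ) : ℕ := ∏ j ∈ range g, sG g a j

/-- The radix is large enough for `D` super-digits of `g` digits. -/
def Big (D g a : ℕ) : Prop := 2 * D * g * (g * AG g) ≤ 2 ^ a

/-- A suitable logarithm of the radix. -/
def aG (D g : ℕ) : ℕ := Nat.size (2 * D * g * (g * AG g))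

theorem big_aG (D g : ℕ) : Big D g (aG D g) := (Nat.lt_size_self _).le

theorem AG_pos (g : ℕ) : 0 < AG g := Nat.mul_pos (by norm_num) g.factorial_pos

theorem two_pow_aG_le {D g : ℕ} (hD : 1 ≤ D) (hg : 1 ≤ g) :
    2 ^ aG D g ≤ 4 * D * g * (g * AG g) := by
  have h0 : 0 < 2 * D * g * (g * AG g) := by
    have := AG_pos g
    positivity
  have h1 : 2 ^ (aG D g - 1) ≤ 2 * D * g * (g * AG g) := by
    rw [← Nat.lt_size]
    unfold aG
    have := Nat.size_pos.2 h0
    omega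
  have h2 : 1 ≤ aG D g := Nat.size_pos.2 h0
  calc 2 ^ aG D g = 2 ^ (aG D g - 1 + 1) := by rw [Nat.sub_add_cancel h2]
    _ = 2 * 2 ^ (aG D g - 1) := by rw [pow_succ]; ring
    _ ≤ 2 * (2 * D * g * (g * AG g)) := Nat.mul_le_mul_left _ h1
    _ = _ := by ring

variable {D g a : ℕ}

theorem Big.mono (h : Big D g a) {a' : ℕ} (h' : a ≤ a') : Big D g a' :=
  le_trans h (Nat.pow_le_pow_right (by norm_num) h')

theorem Big.one (h : Big D g a) (hD : 1 ≤ D) : Big 1 g a := by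
  unfold Big at h ⊢
  refine le_trans ?_ h
  gcongr

theorem Big.gA (h : Big D g a) (hD : 1 ≤ D) (hg : 1 ≤ g) : 2 * (g * AG g) ≤ 2 ^ a := by
  refine le_trans ?_ h
  apply Nat.mul_le_mul_right
  calc 2 = 2 * 1 * 1 := rfl
    _ ≤ 2 * D * g := by gcongr

theorem mul_le_pred (hD : 1 ≤ D) (hg : 1 ≤ g) (h : Big D g a) : g * AG g ≤ 2 ^ a - 1 := by
  have h1 := h.gA hD hg
  have h4 : 1 ≤ g * AG g := Nat.mul_pos hg (AG_pos g)
  omega

theorem le_TG (hD : 1 ≤ D) (hg : 1 ≤ g) (h : Big D g a) : g ≤ TG g a :=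
  (Nat.le_div_iff_mul_le (AG_pos g)).2 (mul_le_pred hD hg h)

theorem sG_pos (g a j : ℕ) : 0 < sG g a j := by unfold sG; omega

theorem sG_le (g a j : ℕ) : sG g a j ≤ 2 ^ a := by
  have h1 : AG g * (TG g a - j) ≤ 2 ^ a - 1 :=
    (Nat.mul_le_mul_left _ (Nat.sub_le _ _)).trans (Nat.mul_div_le _ _)
  have h2 : 1 ≤ 2 ^ a := Nat.one_le_two_pow
  unfold sG
  omega

/-- The moduli are close to the radix. -/
theorem le_sG (hD : 1 ≤ D) (h : Big D g a) {j : ℕ} (hj : j < g) :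
    2 ^ a ≤ sG g a j + g * AG g := by
  have h0 := le_TG hD (by omega) h
  have h2 : 2 ^ a - 1 < AG g * TG g a + AG g := by
    have := Nat.lt_div_mul_add (a := 2 ^ a - 1) (AG_pos g)
    rwa [mul_comm] at this
  have h3 : 1 ≤ 2 ^ a := Nat.one_le_two_pow
  have h4 : AG g * TG g a = AG g * (TG g a - j) + AG g * j := by
    rw [← Nat.mul_add]; congr 1; omega
  have h5 : AG g * j + AG g ≤ g * AG g := by
    calc AG g * j + AG g = AG g * (j + 1) := by ring
      _ ≤ AG g * g := Nat.mul_le_mul_left _ hj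
      _ = g * AG g := mul_comm _ _
  unfold sG
  omega

/-- The relative gap is at most `1 / (2 D g)`. -/
theorem gap_sG (hD : 1 ≤ D) (h : Big D g a) {j : ℕ} (hj : j < g) :
    (2 ^ a - sG g a j) * (2 * (D * g)) ≤ 2 ^ a := by
  have h1 := le_sG hD h hj
  calc (2 ^ a - sG g a j) * (2 * (D * g)) ≤ (g * AG g) * (2 * (D * g)) :=
        Nat.mul_le_mul_right _ (by omega)
    _ = 2 * D * g * (g * AG g) := by ring
    _ ≤ _ := h

theorem radix_le_two_mul (hD : 1 ≤ D) (h : Big D g a) {j : ℕ} (hj : j < g) :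
    2 ^ a ≤ 2 * sG g a j := by
  have h1 := gap_sG hD h hj
  have h2 : (2 ^ a - sG g a j) * 2 ≤ 2 ^ a := by
    refine le_trans (Nat.mul_le_mul_left _ ?_) h1
    have : 1 ≤ D * g := Nat.mul_pos hD (by omega)
    omega
  omega

/-- All moduli are `1` modulo `2 g!`. -/
theorem sG_mod {m : ℕ} (hm : m ∣ AG g) (a j : ℕ) : sG g a j % m = 1 % m := by
  obtain ⟨e, he⟩ := hm
  unfold sG
  rw [he, mul_assoc, Nat.add_mul_mod_self_left]

theorem odd_sG (g a j : ℕ) : Odd (sG g a j) := by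
  rw [Nat.odd_iff, sG_mod (Dvd.intro _ rfl)]

theorem three_le_sG (hD : 1 ≤ D) (h : Big D g a) {j : ℕ} (hj : j < g) : 3 ≤ sG g a j := by
  have h0 := le_TG hD (by omega) h
  have h1 : 2 ≤ AG g := by
    have := g.factorial_pos
    unfold AG; omega
  have h2 : 1 ≤ TG g a - j := by omega
  unfold sG
  have : 2 * 1 ≤ AG g * (TG g a - j) := Nat.mul_le_mul h1 h2
  omega

theorem sub_dvd_AG {i j : ℕ} (hij : i < j) (hj : j < g) : j - i ∣ AG g :=
  (Nat.dvd_factorial (by omega) (by omega)).mul_left 2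

/-- `s_i = s_j + A (j - i)`. -/
theorem sG_eq_add (hD : 1 ≤ D) (h : Big D g a) {i j : ℕ} (hij : i ≤ j) (hj : j < g) :
    sG g a i = sG g a j + AG g * (j - i) := by
  have h0 := le_TG hD (by omega) h
  unfold sG
  rw [show TG g a - i = (TG g a - j) + (j - i) by omega]
  ring

/-- The moduli decrease. -/
theorem sG_anti (g a : ℕ) {i j : ℕ} (hij : i ≤ j) : sG g a j ≤ sG g a i := by
  unfold sG
  have : TG g a - j ≤ TG g a - i := by omega
  have := Nat.mul_le_mul_left (AG g) this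
  omega

/-- The inverse of `A` modulo `s_j` is `- (T - j)`. -/
theorem AG_inv (g a j : ℕ) : (AG g * (TG g a - j) + 1) % sG g a j = 0 := by
  rw [show AG g * (TG g a - j) + 1 = sG g a j by unfold sG; ring, Nat.mod_self]

/-- The inverse of `s_i` modulo `s_j`. -/
def invG (g a i j : ℕ) : ℕ :=
  if i < j then (TG g a - j) ^ 2 * (AG g / (j - i)) % sG g a j
  else (sG g a j - (TG g a - j) ^ 2 * (AG g / (i - j)) % sG g a j) % sG g a j

theorem invG_lt (g a i j : ℕ) : invG g a i j < sG g a j := by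
  unfold invG
  split_ifs
  · exact Nat.mod_lt _ (sG_pos g a j)
  · exact Nat.mod_lt _ (sG_pos g a j)

theorem cast_AG (g a j : ℕ) :
    (AG g : ZMod (sG g a j)) * ((TG g a - j : ℕ) : ZMod (sG g a j)) = -1 := by
  have h : ((AG g * (TG g a - j) + 1 : ℕ) : ZMod (sG g a j)) = 0 := by
    rw [ZMod.natCast_eq_zero_iff]
    exact Nat.dvd_of_mod_eq_zero (AG_inv g a j)
  push_cast at h
  exact eq_neg_of_add_eq_zero_left h

theorem cast_sG_lt (hD : 1 ≤ D) (h : Big D g a) {i j : ℕ} (hij : i < j) (hj : j < g) :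
    (sG g a i : ZMod (sG g a j)) = AG g * ((j - i : ℕ) : ZMod (sG g a j)) := by
  rw [sG_eq_add hD h hij.le hj]
  push_cast
  rw [ZMod.natCast_self, zero_add]

theorem cast_sG_gt (hD : 1 ≤ D) (h : Big D g a) {i j : ℕ} (hij : j < i) (hi : i < g) :
    (sG g a i : ZMod (sG g a j)) = -(AG g * ((i - j : ℕ) : ZMod (sG g a j))) := by
  have h := sG_eq_add hD h hij.le hi
  have h1 : ((sG g a j : ℕ) : ZMod (sG g a j)) =
      ((sG g a i + AG g * (i - j) : ℕ) : ZMod (sG g a j)) :=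
    congrArg (Nat.cast : ℕ → ZMod (sG g a j)) h
  rw [ZMod.natCast_self] at h1
  push_cast at h1
  exact eq_neg_of_add_eq_zero_left h1.symm

theorem invG_spec (hD : 1 ≤ D) (h : Big D g a) {i j : ℕ} (hi : i < g) (hj : j < g) (hij : i ≠ j) :
    (sG g a i : ZMod (sG g a j)) * (invG g a i j : ZMod (sG g a j)) = 1 := by
  have hA := cast_AG g a j
  have key : ∀ e : ℕ, 0 < e → e ∣ AG g → (AG g : ZMod (sG g a j)) * (e : ZMod (sG g a j)) *
      (((TG g a - j : ℕ) : ZMod (sG g a j)) ^ 2 * ((AG g / e : ℕ) : ZMod (sG g a j))) = 1 := by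
    intro e he hed
    have h1 : (e : ZMod (sG g a j)) * ((AG g / e : ℕ) : ZMod (sG g a j)) = AG g := by
      rw [← Nat.cast_mul, Nat.mul_div_cancel' hed]
    calc (AG g : ZMod (sG g a j)) * (e : ZMod (sG g a j)) *
          (((TG g a - j : ℕ) : ZMod (sG g a j)) ^ 2 * ((AG g / e : ℕ) : ZMod (sG g a j)))
        = (AG g : ZMod (sG g a j)) * ((TG g a - j : ℕ) : ZMod (sG g a j)) ^ 2 *
          ((e : ZMod (sG g a j)) * ((AG g / e : ℕ) : ZMod (sG g a j))) := by ring
      _ = (AG g * ((TG g a - j : ℕ) : ZMod (sG g a j))) ^ 2 := by rw [h1]; ring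
      _ = 1 := by rw [hA]; ring
  rcases lt_or_gt_of_ne hij with h' | h'
  · rw [cast_sG_lt hD h h' hj, invG, if_pos h', ZMod.natCast_mod]
    push_cast
    exact key (j - i) (by omega) (sub_dvd_AG h' hj)
  · rw [cast_sG_gt hD h h' hi, invG, if_neg (by omega), ZMod.natCast_mod]
    have hle : (TG g a - j) ^ 2 * (AG g / (i - j)) % sG g a j ≤ sG g a j :=
      (Nat.mod_lt _ (sG_pos g a j)).le
    rw [Nat.cast_sub hle, ZMod.natCast_self, ZMod.natCast_mod, zero_sub]
    have := key (i - j) (by omega) (sub_dvd_AG h' hi)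
    push_cast at this ⊢
    rw [neg_mul_neg]
    exact this

theorem invG_mod (hD : 1 ≤ D) (h : Big D g a) {i j : ℕ} (hi : i < g) (hj : j < g) (hij : i ≠ j) :
    sG g a i * invG g a i j % sG g a j = 1 := by
  have h1 := invG_spec hD h hi hj hij
  have h2 : ((sG g a i * invG g a i j : ℕ) : ZMod (sG g a j)) = ((1 : ℕ) : ZMod (sG g a j)) := by
    push_cast; exact h1
  rw [ZMod.natCast_eq_natCast_iff'] at h2
  rw [h2]
  exact Nat.mod_eq_of_lt (by have := three_le_sG hD h hj; omega)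

theorem coprime_sG (hD : 1 ≤ D) (h : Big D g a) {i j : ℕ} (hi : i < g) (hj : j < g)
    (hij : i ≠ j) : Nat.Coprime (sG g a i) (sG g a j) := by
  have h := invG_mod hD h hi hj hij
  rw [Nat.coprime_iff_gcd_eq_one]
  have h1 : Nat.gcd (sG g a i) (sG g a j) ∣ 1 := by
    rw [← h]
    exact (Nat.dvd_mod_iff (Nat.gcd_dvd_right _ _)).2 ((Nat.gcd_dvd_left _ _).mul_right _)
  exact Nat.dvd_one.1 h1

theorem pairwise_sG (hD : 1 ≤ D) (h : Big D g a) :
    Set.Pairwise (↑(range g) : Set ℕ) fun i j => Nat.Coprime (sG g a i) (sG g a j) := by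
  intro i hi j hj hij
  exact coprime_sG hD h (by simpa using hi) (by simpa using hj) hij

theorem LG_le (g a : ℕ) : LG g a ≤ (2 ^ a) ^ g := by
  calc ∏ i ∈ range g, sG g a i ≤ ∏ _i ∈ range g, 2 ^ a :=
        prod_le_prod' fun i _ => sG_le g a i
    _ = (2 ^ a) ^ g := by simp

theorem LG_pos (g a : ℕ) : 0 < LG g a := prod_pos fun j _ => sG_pos g a j

theorem odd_LG (g a : ℕ) : Odd (LG g a) := by
  unfold LG
  exact Finset.prod_induction _ Odd (fun _ _ => Odd.mul) odd_one fun j _ => odd_sG g a j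

/-- The product of all moduli of `D` super-digits is at least half the product of the radices. -/
theorem le_LG_pow (hD : 1 ≤ D) (hg : 1 ≤ g) (h : Big D g a) :
    (2 ^ a) ^ (g * D) ≤ 2 * LG g a ^ D := by
  have hN : (0 : ℝ) < 2 ^ a := by positivity
  have hDg : (1 : ℝ) ≤ D * g := by exact_mod_cast Nat.mul_pos hD hg
  have hDg0 : (0 : ℝ) < 2 * (D * g) := by linarith
  have hx : ∀ j < g, (1 : ℝ) - 1 / (2 * (D * g)) ≤ sG g a j / 2 ^ a := by
    intro j hj
    have h1 := gap_sG hD h hj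
    have h2 : ((2 ^ a - sG g a j : ℕ) : ℝ) * (2 * (D * g)) ≤ 2 ^ a := by exact_mod_cast h1
    rw [Nat.cast_sub (sG_le g a j)] at h2
    push_cast at h2
    rw [le_div_iff₀ hN, sub_mul, one_mul, div_mul_eq_mul_div, one_mul]
    rw [sub_le_comm, le_div_iff₀ hDg0]
    exact h2
  have hx0 : (0 : ℝ) ≤ 1 - 1 / (2 * (D * g)) := by
    rw [sub_nonneg, div_le_one hDg0]; linarith
  have h1 : (1 - 1 / (2 * (D * g)) : ℝ) ^ g ≤ (LG g a : ℝ) / (2 ^ a) ^ g := by
    have h2 : ∏ _j ∈ range g, (1 - 1 / (2 * (D * g)) : ℝ) ≤ ∏ j ∈ range g, (sG g a j / 2 ^ a : ℝ) :=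
      Finset.prod_le_prod (fun _ _ => hx0) fun j hj => hx j (by simpa using hj)
    rw [prod_const, card_range, Finset.prod_div_distrib, prod_const, card_range] at h2
    unfold LG
    push_cast
    exact h2
  have h3 : (1 / 2 : ℝ) ≤ (1 - 1 / (2 * (D * g)) : ℝ) ^ (g * D) := by
    have hb := one_add_mul_le_pow (a := -(1 / (2 * (D * g)) : ℝ)) (by
      have : (1 / (2 * (D * g)) : ℝ) ≤ 1 := by rw [div_le_one hDg0]; linarith
      linarith) (g * D)
    have h4 : (1 : ℝ) + (g * D : ℕ) * -(1 / (2 * (D * g)) : ℝ) = 1 / 2 := by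
      push_cast
      have h5 : ((g : ℝ) * D) / (2 * (D * g)) = 1 / 2 := by
        rw [div_eq_div_iff hDg0.ne' (by norm_num)]; ring
      calc (1 : ℝ) + g * D * -(1 / (2 * (D * g)) : ℝ) = 1 - ((g : ℝ) * D) / (2 * (D * g)) := by ring
        _ = 1 / 2 := by rw [h5]; norm_num
    rw [h4] at hb
    calc (1 / 2 : ℝ) ≤ (1 + -(1 / (2 * (D * g)) : ℝ)) ^ (g * D) := hb
      _ = _ := by rw [← sub_eq_add_neg]
  have h6 : (1 / 2 : ℝ) ≤ (LG g a : ℝ) ^ D / (2 ^ a) ^ (g * D) := by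
    calc (1 / 2 : ℝ) ≤ (1 - 1 / (2 * (D * g)) : ℝ) ^ (g * D) := h3
      _ = ((1 - 1 / (2 * (D * g)) : ℝ) ^ g) ^ D := by rw [pow_mul]
      _ ≤ ((LG g a : ℝ) / (2 ^ a) ^ g) ^ D := pow_le_pow_left₀ (pow_nonneg hx0 _) h1 _
      _ = _ := by rw [div_pow, ← pow_mul]
  rw [le_div_iff₀ (by positivity)] at h6
  have h7 : (((2 ^ a) ^ (g * D) : ℕ) : ℝ) ≤ ((2 * LG g a ^ D : ℕ) : ℝ) := by
    push_cast
    linarith
  exact_mod_cast h7

end Vale.Agent.P338.R3.H501.Rad3
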