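import Vale.Agent.P338.R3.H501.Rad3
import Vale.Agent.Lib.PolyTime.NatArith2
import Vale.Agent.Lib.PolyTime.Lists2

/-!
P338-D: the moduli of `Rad3` are computable in polynomial time (number of digits and logarithm of
the radix polynomially bounded, for instance given in unary).
-/

namespace Vale.Agent.P338.R3.H501.Rad3

open Vale.Agent.Lib.PolyTime

variable {A : Set Word} {α : Type*} [Enc α]

theorem pt_AG {g : α → ℕ} (hg : PT A g) (hb : PBd g) : PT A (fun x => AG (g x)) := by
  unfold AG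
  exact PT.mul (PT.const 2) (PT.factorial hg hb)

theorem pt_two_pow {a : α → ℕ} (ha : PT A a) (hb : PBd a) : PT A (fun x => 2 ^ a x) :=
  PT.pow (PT.const 2) ha hb

theorem pt_TG {g a : α → ℕ} (hg : PT A g) (hgb : PBd g) (ha : PT A a) (hab : PBd a) :
    PT A (fun x => TG (g x) (a x)) := by
  unfold TG
  exact PT.div (PT.sub (pt_two_pow ha hab) (PT.const 1)) (pt_AG hg hgb)

theorem pt_sG {g a j : α → ℕ} (hg : PT A g) (hgb : PBd g) (ha : PT A a) (hab : PBd a)
    (hj : PT A j) : PT A (fun x => sG (g x) (a x) (j x)) := by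
  unfold sG
  exact PT.add (PT.const 1) (PT.mul (pt_AG hg hgb) (PT.sub (pt_TG hg hgb ha hab) hj))

theorem pt_invG {g a i j : α → ℕ} (hg : PT A g) (hgb : PBd g) (ha : PT A a) (hab : PBd a)
    (hi : PT A i) (hj : PT A j) : PT A (fun x => invG (g x) (a x) (i x) (j x)) := by
  have hT := PT.pow (PT.sub (pt_TG hg hgb ha hab) hj) (PT.const 2) (PBd.const 2)
  have hs := pt_sG hg hgb ha hab hj
  have hA := pt_AG hg hgb
  unfold invG
  exact PT.ite (PT.lt hi hj) (PT.mod (PT.mul hT (PT.div hA (PT.sub hj hi))) hs)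
    (PT.mod (PT.sub hs (PT.mod (PT.mul hT (PT.div hA (PT.sub hi hj))) hs)) hs)

theorem pt_aG {D g : α → ℕ} (hD : PT A D) (hg : PT A g) (hgb : PBd g) :
    PT A (fun x => aG (D x) (g x)) := by
  unfold aG
  exact PT.natSize (PT.mul (PT.mul (PT.mul (PT.const 2) hD) hg) (PT.mul hg (pt_AG hg hgb)))

/-- The list of the moduli. -/
theorem pt_sGs {g a : α → ℕ} (hg : PT A g) (hgb : PBd g) (ha : PT A a) (hab : PBd a) :
    PT A (fun x => (List.range (g x)).map (sG (g x) (a x))) := by
  have h2 : PT A (fun p : α × ℕ => sG (g p.1) (a p.1) p.2) :=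
    pt_sG (hg.comp PT.fst') (PBd.comp hgb (PT.fst' (A := A))) (ha.comp PT.fst')
      (PBd.comp hab (PT.fst' (A := A))) PT.snd'
  exact PT.map (f := fun x j => sG (g x) (a x) j) (PT.range hg hgb) h2

end Vale.Agent.P338.R3.H501.Rad3
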